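import Vale.Agent.P273.D14.H837.FX4

/-! The functional does not vanish on the exotic relation. -/

noncomputable section
namespace Vale.Agent.P273.D14.H837
open Sum Vale.Agent.P273.Num Vale.Agent.P273.D14.H387

theorem sg_sq (σ : Bool → Equiv.Perm (Fin 7)) : Num.sg σ * Num.sg σ = 1 := by
  unfold Num.sg
  rcases Int.units_eq_one_or (Equiv.Perm.sign (σ true)) with h | h <;>
    rcases Int.units_eq_one_or (Equiv.Perm.sign (σ false)) with h' | h' <;> rw [h, h'] <;> norm_num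

theorem card_perm : Fintype.card (Bool → Equiv.Perm (Fin 7)) = 5040 ^ 2 := by
  rw [Fintype.card_fun, Fintype.card_perm, Fintype.card_fin, Fintype.card_bool]
  rfl

theorem FX (φ : Und) (hφ : ∀ V E (h : E × Bool → V), φ V E h = FS.f h) :
    ∑ q ∈ Finset.range 7, ∑ p ∈ Finset.range (q + 1), (disc p (q - p) (6 - q) : ℚ) *
      ∑ σ, Num.sg σ * FF (G φ) (Option (Fin 7)) (Fin 3 ⊕ Fin 6) und (th p q σ) =
      -7 * 5040 ^ 2 := by
  have h1 : ∀ q ∈ Finset.range 7, ∀ p ∈ Finset.range (q + 1),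
      ∑ σ, Num.sg σ * FF (G φ) (Option (Fin 7)) (Fin 3 ⊕ Fin 6) und (th p q σ) =
      num p q * 5040 ^ 2 := by
    intro q hq p hp
    rw [Finset.mem_range] at hq hp
    have h2 : ∀ σ, Num.sg σ * FF (G φ) (Option (Fin 7)) (Fin 3 ⊕ Fin 6) und (th p q σ) =
        num p q := by
      intro σ
      have h3 := FF_th φ ⟨p, by omega⟩ ⟨q, hq⟩ (by show p ≤ q; omega) σ
      have h4 := f_hv ⟨p, by omega⟩ ⟨q, hq⟩ (by show p ≤ q; omega)
      simp only at h3 h4
      rw [h3, hφ, h4, ← mul_assoc, sg_sq, one_mul]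
    rw [Finset.sum_congr rfl fun σ _ => h2 σ, Finset.sum_const, Finset.card_univ, card_perm]
    rw [nsmul_eq_mul, mul_comm]
    norm_num
  rw [← num_sum, Finset.sum_mul]
  refine Finset.sum_congr rfl fun q hq => ?_
  rw [Finset.sum_mul]
  refine Finset.sum_congr rfl fun p hp => ?_
  rw [h1 q hq p hp, mul_assoc]

theorem FX_ne (φ : Und) (hφ : ∀ V E (h : E × Bool → V), φ V E h = FS.f h) :
    ∑ q ∈ Finset.range 7, ∑ p ∈ Finset.range (q + 1), (disc p (q - p) (6 - q) : ℚ) *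
      ∑ σ, Num.sg σ * FF (G φ) (Option (Fin 7)) (Fin 3 ⊕ Fin 6) und (th p q σ) ≠ 0 := by
  rw [FX φ hφ]
  norm_num

end Vale.Agent.P273.D14.H837
end
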