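import Vale.Agent.P273.D14.H599.Cf

/-! The string equation for the pairing, from the bijection of configurations. -/

noncomputable section

namespace Vale.Agent.P273.Num

open Sum Vale.Agent.P273.Q
open scoped Classical Nat

variable {V E V' E' L W W₁ : Type}

namespace Cf

variable {f : (E × Bool) ⊕ L → V × ℕ} {f' : (E' × Bool) ⊕ L → V' × ℕ} {x : L}

/-- Renaming the vertices. -/
def mapW (σ : W ≃ W₁) (S : Cf W f f' x) : Cf W₁ f f' x where
  h y := σ (S.h y)
  h' y := σ (S.h' y)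
  M := S.M
  m := S.m
  c w := S.c (σ.symm w)
  c' w := S.c' (σ.symm w)
  m_none := S.m_none
  M_inj := S.M_inj
  h_M e e' b he s := congrArg σ (S.h_M e e' b he s)
  c_h y := by rw [Equiv.symm_apply_apply]; exact S.c_h y
  c'_h z hz := by rw [Equiv.symm_apply_apply]; exact S.c'_h z hz
  c'_h' y := by rw [Equiv.symm_apply_apply]; exact S.c'_h' y
  tree := S.tree.congr σ (fun _ => Iff.rfl) (fun _ => rfl)
    fun w => by rw [Equiv.symm_apply_apply]
  tree' := S.tree'.congr σ (fun _ => Iff.rfl) (fun _ => rfl)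
    fun w => by rw [Equiv.symm_apply_apply]

/-- Renaming the vertices. -/
def equivW (σ : W ≃ W₁) : Cf W f f' x ≃ Cf W₁ f f' x where
  toFun := mapW σ
  invFun := mapW σ.symm
  left_inv S := by
    apply Cf.ext <;> simp [mapW]
  right_inv S := by
    apply Cf.ext <;> simp [mapW]

theorem r_mapW (σ : W ≃ W₁) (S : Cf W f f' x) (w : W) : (S.mapW σ).r (σ w) = S.r w := by
  unfold r
  simp only [mapW, EmbeddingLike.apply_eq_iff_eq]

theorem s_mapW (σ : W ≃ W₁) (S : Cf W f f' x) (w : W) : (S.mapW σ).s (σ w) = S.s w := by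
  unfold s
  simp only [mapW, EmbeddingLike.apply_eq_iff_eq]

theorem wt_mapW [Fintype W] [Fintype W₁] (σ : W ≃ W₁) (S : Cf W f f' x) :
    (S.mapW σ).wt = S.wt := by
  unfold wt
  rw [← Equiv.prod_comp σ]
  simp only [r_mapW, s_mapW]
  rfl

end Cf

theorem finsum_split {α : Type} [Finite α] (P : α → Prop) (g : α → ℚ) :
    ∑ᶠ a, g a = ∑ᶠ (a) (_ : P a), g a + ∑ᶠ (a) (_ : ¬ P a), g a := by
  have := Fintype.ofFinite α
  simp only [finsum_eq_if, finsum_eq_sum_of_fintype]
  rw [← Finset.sum_add_distrib]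
  refine Finset.sum_congr rfl fun a _ => ?_
  by_cases h : P a <;> simp [h]

section

variable {f : (E × Bool) ⊕ L → V × ℕ} {f' : (E' × Bool) ⊕ L → V' × ℕ} {x : L}

theorem X_fin [Finite V] [Finite E] [Finite V'] [Finite E'] [Finite L] (k : ℕ) :
    ∑ᶠ (S : Cf (Fin (k + 1)) f f' x) (_ : S.r (S.h (inr x)) = 0), S.wt =
      (k + 1) * ∑ᶠ (S : Cf (Option (Fin k)) f f' x) (_ : S.h (inr x) = none ∧ S.r none = 0),
        S.wt := by
  have i1 := Fintype.ofFinite (Cf (Fin (k + 1)) f f' x)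
  have i2 := Fintype.ofFinite (Cf (Option (Fin k)) f f' x)
  simp only [finsum_eq_if, finsum_eq_sum_of_fintype]
  have h1 : ∀ S : Cf (Fin (k + 1)) f f' x, (if S.r (S.h (inr x)) = 0 then S.wt else 0) =
      ∑ j, if S.h (inr x) = j ∧ S.r j = 0 then S.wt else 0 := by
    intro S
    rw [Finset.sum_eq_single (S.h (inr x))]
    · simp
    · intro j _ hj
      rw [if_neg]
      rintro ⟨h, -⟩
      exact hj h.symm
    · intro h
      exact absurd (Finset.mem_univ _) h
  rw [Finset.sum_congr rfl fun S _ => h1 S, Finset.sum_comm]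
  have h2 : ∀ j : Fin (k + 1), ∑ S : Cf (Fin (k + 1)) f f' x,
      (if S.h (inr x) = j ∧ S.r j = 0 then S.wt else 0) =
      ∑ S : Cf (Option (Fin k)) f f' x, if S.h (inr x) = none ∧ S.r none = 0 then S.wt else 0 := by
    intro j
    let σ : Fin (k + 1) ≃ Option (Fin k) := finSuccEquiv' j
    have hj : σ j = none := finSuccEquiv'_at j
    rw [← Equiv.sum_comp (Cf.equivW σ)]
    refine Finset.sum_congr rfl fun S _ => ?_
    have e1 : (Cf.equivW σ S) = S.mapW σ := rfl
    rw [e1, Cf.wt_mapW]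
    have e2 : (S.mapW σ).h (inr x) = none ↔ S.h (inr x) = j := by
      show σ (S.h (inr x)) = none ↔ _
      rw [← hj]
      exact σ.apply_eq_iff_eq
    have e3 : (S.mapW σ).r none = S.r j := by
      rw [← hj]
      exact S.r_mapW σ j
    refine if_congr ?_ rfl rfl
    rw [e2, e3]
  rw [Finset.sum_congr rfl fun j _ => h2 j]
  simp

/-- The string equation, from the bijection `main_bij`. -/
theorem string_of [Finite V] [Finite E] [Finite V'] [Finite E'] [Finite L]
    (hf : ∀ y, (f y).2 = 0) (hf' : ∀ y, (f' y).2 = 0)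
    (hb : Nat.card V' ≤ Nat.card E')
    (key : ∀ k : ℕ, ∑ᶠ (S : Cf (Option (Fin k)) f f' x) (_ : S.h (inr x) = none ∧ S.r none = 0),
      S.wt = - ∑ᶠ (S : Cf (Fin k) f f' x) (_ : ¬ S.r (S.h (inr x)) = 0), S.wt) :
    ∑ᶠ v, pair und f und (Function.update f' (inr x) (v, 0)) = 0 := by
  have := Fintype.ofFinite V'
  let X : ℕ → ℚ := fun k => ∑ᶠ (S : Cf (Fin k) f f' x) (_ : S.r (S.h (inr x)) = 0), S.wt
  let Y : ℕ → ℚ := fun k => ∑ᶠ (S : Cf (Fin k) f f' x) (_ : ¬ S.r (S.h (inr x)) = 0), S.wt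
  have h1 : ∑ᶠ v, pair und f und (Function.update f' (inr x) (v, 0)) =
      ∑ k ∈ Finset.range (Nat.card E + Nat.card E' + 2), (X k + Y k) / k ! := by
    unfold pair
    rw [finsum_eq_sum_of_fintype, Finset.sum_comm]
    refine Finset.sum_congr rfl fun k _ => ?_
    rw [← Finset.sum_div, ← finsum_eq_sum_of_fintype, sum_dgn k f f' x hf hf']
    congr 1
    exact finsum_split _ _
  have hX : ∀ k, X (k + 1) / (k + 1) ! = - (Y k / k !) := by
    intro k
    have e1 : X (k + 1) = (k + 1) * - Y k := by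
      show _ = (k + 1) * - ∑ᶠ (S : Cf (Fin k) f f' x) (_ : ¬ S.r (S.h (inr x)) = 0), S.wt
      rw [← key k]
      exact X_fin k
    rw [e1, Nat.factorial_succ]
    have h2 : (k ! : ℚ) ≠ 0 := by exact_mod_cast Nat.factorial_ne_zero k
    have h3 : (k + 1 : ℚ) ≠ 0 := by positivity
    push_cast
    field_simp
  have hX0 : X 0 = 0 := by
    show ∑ᶠ (S : Cf (Fin 0) f f' x) (_ : S.r (S.h (inr x)) = 0), S.wt = 0
    have : IsEmpty (Cf (Fin 0) f f' x) := ⟨fun S => (S.h (inr x)).elim0⟩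
    exact finsum_of_isEmpty _
  have hYK : Y (Nat.card E + Nat.card E' + 1) = 0 := by
    show ∑ᶠ (S : Cf (Fin (Nat.card E + Nat.card E' + 1)) f f' x)
      (_ : ¬ S.r (S.h (inr x)) = 0), S.wt = 0
    have : IsEmpty (Cf (Fin (Nat.card E + Nat.card E' + 1)) f f' x) := by
      refine ⟨fun S => ?_⟩
      have h2 := S.tree'.card_eq
      rw [Nat.card_fin] at h2
      have h3 : Nat.card {e // S.M e = none} ≤ Nat.card E :=
        Nat.card_le_card_of_injective _ Subtype.val_injective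
      omega
    exact finsum_of_isEmpty _
  have h4 : ∀ K, ∑ k ∈ Finset.range (K + 1), (X k + Y k) / k ! = Y K / K ! := by
    intro K
    induction K with
    | zero => simp [hX0]
    | succ K ih =>
      rw [Finset.sum_range_succ, ih, add_div, hX]
      ring
  rw [h1, show Nat.card E + Nat.card E' + 2 = (Nat.card E + Nat.card E' + 1) + 1 by ring, h4, hYK,
    zero_div]

end

end Vale.Agent.P273.Num
end
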