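import Vale.Agent.P273.D14.H593.NumX

/-! Package NUM-B: an all-rational decorated graph of genus `2` in degree `8` whose legs of the
same colour are in different places is undecorated, with one leg of each colour per vertex. -/

noncomputable section

namespace Vale.Agent.P273.Num

open Sum Vale.Agent.P273.Q
open scoped Classical Nat

variable {V' E' : Type}

theorem card_le_sum_add {V : Type} [Finite V] {n : ℕ} (r : Fin n → V × ℕ)
    (hr : Function.Injective r) : n ≤ ∑ i, (r i).2 + Nat.card V := by
  classical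
  have h1 : ∀ i, 1 ≤ (r i).2 + (if (r i).2 = 0 then 1 else 0) := by
    intro i
    split_ifs with h <;> omega
  have h2 : n ≤ ∑ i, ((r i).2 + (if (r i).2 = 0 then 1 else 0)) := by
    calc n = ∑ _i : Fin n, 1 := by simp
      _ ≤ _ := Finset.sum_le_sum fun i _ => h1 i
  have h3 : (∑ i, (if (r i).2 = 0 then 1 else 0)) ≤ Nat.card V := by
    rw [Finset.sum_boole]
    have : Fintype V := Fintype.ofFinite V
    rw [Nat.card_eq_fintype_card, Nat.cast_id]
    refine Finset.card_le_card_of_injOn (fun i => (r i).1) (fun i _ => Finset.mem_univ _) ?_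
    intro i hi j hj hij
    simp only [Finset.mem_coe, Finset.mem_filter, Finset.mem_univ, true_and] at hi hj
    exact hr (Prod.ext hij (by rw [hi, hj]))
  rw [Finset.sum_add_distrib] at h2
  omega

theorem full_of_rational (a' : V' → ℕ × Multiset ℕ)
    (f' : (E' × Bool) ⊕ (Fin 7 × Bool) → V' × ℕ) (hv : Valid a' f' 2 8)
    (h0 : ∀ v, (a' v).1 = 0) (hk : ∀ v, 0 ∉ (a' v).2)
    (hd : ∀ i j b, i ≠ j → f' (inr (i, b)) ≠ f' (inr (j, b))) :
    a' = und ∧ (∀ y, (f' y).2 = 0) ∧ Nat.card V' = 7 ∧ Nat.card E' = 8 ∧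
      ∀ b v, ∃! i, (f' (inr (i, b))).1 = v := by
  obtain ⟨⟨hV, hE, hne, hconn, hg, hst, hdg⟩, hdeg⟩ := hv
  have : Fintype V' := Fintype.ofFinite V'
  have : Fintype E' := Fintype.ofFinite E'
  have hg' : Nat.card E' + 1 = 2 + Nat.card V' := by
    have : ∑ᶠ v, (a' v).1 = 0 := by simp [h0]
    omega
  have hinj : ∀ b, Function.Injective fun i => f' (inr (i, b)) := by
    intro b i j hij
    by_contra h
    exact hd i j b h hij
  have hψ : 2 * 7 ≤ ∑ᶠ y, (f' y).2 + 2 * Nat.card V' := by
    rw [finsum_eq_sum_of_fintype, Fintype.sum_sum_type]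
    have h1 := card_le_sum_add _ (hinj true)
    have h2 := card_le_sum_add _ (hinj false)
    have h3 : ∑ x : Fin 7 × Bool, (f' (inr x)).2 =
        ∑ i, (f' (inr (i, true))).2 + ∑ i, (f' (inr (i, false))).2 := by
      rw [Fintype.sum_prod_type, ← Finset.sum_add_distrib]
      refine Finset.sum_congr rfl fun i _ => ?_
      simp
    rw [h3]
    omega
  have hN : Nat.card V' = 7 := by omega
  have hκ : ∑ᶠ v, (a' v).2.sum = 0 := by omega
  have hψ0 : ∑ᶠ y, (f' y).2 = 0 := by omega
  have hz : ∀ y, (f' y).2 = 0 := by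
    rw [finsum_eq_sum_of_fintype] at hψ0
    intro y
    exact Finset.sum_eq_zero_iff.1 hψ0 y (Finset.mem_univ y)
  refine ⟨?_, hz, hN, by omega, ?_⟩
  · rw [finsum_eq_sum_of_fintype] at hκ
    funext v
    refine Prod.ext (h0 v) ?_
    have h1 : (a' v).2.sum = 0 := Finset.sum_eq_zero_iff.1 hκ v (Finset.mem_univ v)
    rw [Multiset.sum_eq_zero_iff] at h1
    refine Multiset.eq_zero_of_forall_notMem fun c hc => ?_
    have := h1 c hc
    subst this
    exact hk v hc
  · intro b
    have hi : Function.Injective fun i => (f' (inr (i, b))).1 := by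
      intro i j hij
      exact hinj b (Prod.ext hij (by simp only [hz]))
    have hb : Function.Bijective fun i => (f' (inr (i, b))).1 := by
      rw [Fintype.bijective_iff_injective_and_card]
      refine ⟨hi, ?_⟩
      rw [← Nat.card_eq_fintype_card (α := V'), hN]
      simp
    intro v
    exact hb.existsUnique v

end Vale.Agent.P273.Num
end
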