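import Vale.Agent.P273.D14.H593.NumDefs
import Vale.Agent.P273.D14.H593.NumX

/-! The forgetful pullback of an undecorated graph. -/

noncomputable section

namespace Vale.Agent.P273.Num

open Sum Vale.Agent.P273.Q
open scoped Classical Nat

variable {V E L : Type}

theorem pull_und (g d : ℕ) (s : Fn (Option L)) (f : (E × Bool) ⊕ L → V × ℕ)
    (hst : Stab und f g d) (hf : ∀ y, (f y).2 = 0) :
    pull g d s V E und f = ∑ᶠ v, s V E und (ad f v 0) := by
  unfold pull
  have h1 : ∀ F : Stab und f g d → ℚ, ∑ᶠ h, F h = F hst := by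
    intro F
    exact finsum_eq_single _ _ (fun x hx => absurd rfl hx)
  rw [h1]
  have h2 : ∑ᶠ (z) (_ : (f z).2 ≠ 0), s (Option V) (Option E) (Option.elim' (0, 0) und) (bub f z)
      = 0 := by
    simp [hf]
  rw [h2, sub_zero]
  refine finsum_congr fun v => ?_
  simp [und]

theorem ad_snd (f : (E × Bool) ⊕ L → V × ℕ) (hf : ∀ y, (f y).2 = 0) (v : V) (y) :
    (ad f v 0 y).2 = 0 := by
  rcases y with y | _ | y
  · exact hf _
  · rfl
  · exact hf _

theorem nv_ad_le [Finite E] [Finite L] (f : (E × Bool) ⊕ L → V × ℕ) (v w : V) (c : ℕ) :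
    nv f w ≤ nv (ad f v c) w := by
  unfold nv
  refine Nat.card_le_card_of_injective (fun y => ⟨y.1.map id some, ?_⟩) ?_
  · obtain ⟨y, hy⟩ := y
    rcases y with y | y
    · exact hy
    · exact hy
  · rintro ⟨y, hy⟩ ⟨y', hy'⟩ h
    have h2 := congrArg Subtype.val h
    simp only at h2
    apply Subtype.ext
    rcases y with y | y <;> rcases y' with y' | y' <;> simp_all

theorem stab_ad [Finite E] [Finite L] (g d : ℕ) (f : (E × Bool) ⊕ L → V × ℕ)
    (a : V → ℕ × Multiset ℕ) (hst : Stab a f g d) (v : V) :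
    Stab a (ad f v 0) g d := by
  obtain ⟨h1, h2, h3, h4, h5, h6, h7⟩ := hst
  refine ⟨h1, h2, h3, h4, h5, fun w => (h6 w).trans_le (Nat.add_le_add_left
    (nv_ad_le f v w 0) _), ?_⟩
  rw [← h7]
  congr 1
  have := Fintype.ofFinite E
  have := Fintype.ofFinite L
  rw [finsum_eq_sum_of_fintype, finsum_eq_sum_of_fintype, Fintype.sum_sum_type,
    Fintype.sum_sum_type, Fintype.sum_option]
  simp [ad]

end Vale.Agent.P273.Num
end
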