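import Vale.Agent.P273.D14.H593.NumF
import Vale.Agent.P273.D14.H743.FDef

/-! The state sum of the theta graphs. -/

noncomputable section
namespace Vale.Agent.P273.D14.H837
open Sum Vale.Agent.P273.Num Vale.Agent.P273.D14.FS MvPolynomial
open scoped Nat

/-- The chain of an edge. -/
def ch (p q : ℕ) : Fin 3 ⊕ Fin 6 → Fin 3
  | inl r => r
  | inr t => if t.1 < p then 0 else if t.1 < q then 1 else 2

/-- The edge before the edge `inr t`. -/
def pre (p q : ℕ) (t : Fin 6) : Fin 3 ⊕ Fin 6 :=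
  if t.1 = q then inl 2 else if t.1 = p then inl 1 else if t.1 = 0 then inl 0 else
    inr (Fin.ofNat 6 (t.1 - 1))

/-- The last edge of a chain. -/
def la (p q : ℕ) : Fin 3 → Fin 3 ⊕ Fin 6
  | 0 => if p = 0 then inl 0 else inr (Fin.ofNat 6 (p - 1))
  | 1 => if p = q then inl 1 else inr (Fin.ofNat 6 (q - 1))
  | 2 => if q = 6 then inl 2 else inr 5

theorem fact0 (p q : ℕ) (y : (Fin 3 ⊕ Fin 6) × Bool) :
    hv p q y = none ↔ y = (inl 0, true) ∨ y = (inl 1, true) ∨ y = (inl 2, true) := by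
  obtain ⟨e | e, b⟩ := y
  · cases b
    · simp [hv]
    · fin_cases e <;> simp [hv]
  · cases b
    · simp [hv]
    · simp [hv]

theorem fact1 : ∀ p q : Fin 7, p ≤ q → ∀ t : Fin 6, ∀ y : (Fin 3 ⊕ Fin 6) × Bool,
    hv p q y = some t.castSucc ↔ y = (inr t, true) ∨ y = (pre p q t, false) := by
  decide +kernel

theorem fact1' : ∀ p q : Fin 7, p ≤ q → ∀ t : Fin 6, (pre p q t = inl (ch p q (inr t)) ∨
    ∃ t' : Fin 6, t' < t ∧ pre p q t = inr t' ∧ ch p q (inr t') = ch p q (inr t)) := by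
  decide +kernel

theorem fact2 : ∀ p q : Fin 7, p ≤ q → ∀ y : (Fin 3 ⊕ Fin 6) × Bool,
    hv p q y = some 6 ↔ y = (la p q 0, false) ∨ y = (la p q 1, false) ∨ y = (la p q 2, false) := by
  decide +kernel

theorem fact2' : ∀ p q : Fin 7, p ≤ q → ∀ r : Fin 3, ch p q (la p q r) = r := by
  decide +kernel

section

variable {V E : Type}

open scoped Classical in
theorem cnt_two (h : E × Bool → V) (s : E → St) (v : V) (y₁ y₂ : E × Bool) (hy : y₁ ≠ y₂)
    (H : ∀ y, h y = v ↔ y = y₁ ∨ y = y₂) (q : St) :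
    cnt h s v q = (if loc s y₁ = q then 1 else 0) + if loc s y₂ = q then 1 else 0 := by
  unfold cnt
  have h1 : {y | h y = v ∧ loc s y = q} =
      ((({y₁, y₂} : Finset (E × Bool)).filter fun y => loc s y = q : Finset (E × Bool)) :
        Set (E × Bool)) := by
    ext y
    simp [H]
  have h2 : Nat.card {y // h y = v ∧ loc s y = q} = Set.ncard {y | h y = v ∧ loc s y = q} := rfl
  rw [h2, h1, Set.ncard_coe_finset, Finset.card_filter, Finset.sum_pair hy]

open scoped Classical in
theorem cnt_three (h : E × Bool → V) (s : E → St) (v : V) (y₁ y₂ y₃ : E × Bool) (h12 : y₁ ≠ y₂)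
    (h13 : y₁ ≠ y₃) (h23 : y₂ ≠ y₃)
    (H : ∀ y, h y = v ↔ y = y₁ ∨ y = y₂ ∨ y = y₃) (q : St) :
    cnt h s v q = (if loc s y₁ = q then 1 else 0) + ((if loc s y₂ = q then 1 else 0) +
      if loc s y₃ = q then 1 else 0) := by
  unfold cnt
  have h1 : {y | h y = v ∧ loc s y = q} =
      ((({y₁, y₂, y₃} : Finset (E × Bool)).filter fun y => loc s y = q : Finset (E × Bool)) :
        Set (E × Bool)) := by
    ext y
    simp [H]
  have h2 : Nat.card {y // h y = v ∧ loc s y = q} = Set.ncard {y | h y = v ∧ loc s y = q} := rfl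
  rw [h2, h1, Set.ncard_coe_finset, Finset.card_filter, Finset.sum_insert (by simp [h12, h13]),
    Finset.sum_pair h23]

/-- A leaf end at a vertex with another half-edge. -/
theorem W_leaf [Finite E] (h : E × Bool → V) (s : E → St) (y₁ y₂ : E × Bool) (hy : y₁ ≠ y₂)
    (h12 : h y₁ = h y₂) (hl : loc s y₁ = inr true) : W (cnt h s (h y₁)) = 0 := by
  unfold W
  have h1 : 0 < cnt h s (h y₁) (inr true) := by
    unfold cnt
    have : Nonempty {y // h y = h y₁ ∧ loc s y = inr true} := ⟨⟨y₁, rfl, hl⟩⟩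
    exact Nat.card_pos
  rw [if_neg h1.ne', if_neg]
  rintro ⟨h2, h3, h4⟩
  by_cases hq : loc s y₂ = inr true
  · unfold cnt at h2
    have : Nontrivial {y // h y = h y₁ ∧ loc s y = inr true} :=
      ⟨⟨y₁, rfl, hl⟩, ⟨y₂, h12.symm, hq⟩, fun h => hy (congrArg Subtype.val h)⟩
    have := Finite.one_lt_card_iff_nontrivial.2 this
    omega
  · have h5 : 0 < cnt h s (h y₁) (loc s y₂) := by
      unfold cnt
      have : Nonempty {y // h y = h y₁ ∧ loc s y = loc s y₂} := ⟨⟨y₂, h12.symm, rfl⟩⟩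
      exact Nat.card_pos
    rcases hs : loc s y₂ with c | b
    · rw [hs, h4 c] at h5
      exact lt_irrefl _ h5
    · rw [hs] at h5 hq
      cases b
      · rw [h3] at h5
        exact lt_irrefl _ h5
      · exact hq rfl

end

/-- The colour of the half-edges. -/
theorem loc_inl {E : Type} (c : E → Fin 3) (y : E × Bool) :
    loc (fun e => (inl (c e) : St)) y = inl (c y.1) := rfl

theorem W_two (a b : Fin 3) :
    W (fun r => (if (inl a : St) = r then 1 else 0) + if (inl b : St) = r then 1 else 0) =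
      if a = b then X a.castSucc else 0 := by
  unfold W
  fin_cases a <;> fin_cases b <;> simp [W0]

theorem W_three (a b c : Fin 3) :
    W (fun r => (if (inl a : St) = r then 1 else 0) + ((if (inl b : St) = r then 1 else 0) +
      if (inl c : St) = r then 1 else 0)) =
      if a ≠ b ∧ a ≠ c ∧ b ≠ c then X 3 * X 0 * X 1 * X 2 else 0 := by
  unfold W
  fin_cases a <;> fin_cases b <;> fin_cases c <;> simp [W0]

end Vale.Agent.P273.D14.H837
end
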