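import Vale.Agent.P273.D14.H837.FX1

/-! The value of `f` on the theta graphs. -/

noncomputable section
namespace Vale.Agent.P273.D14.H837
open Sum Vale.Agent.P273.Num Vale.Agent.P273.D14.FS MvPolynomial
open scoped Nat

/-- The weight of a state. -/
def P (p q : ℕ) (s : Fin 3 ⊕ Fin 6 → St) : R := ∏ v, W (cnt (hv p q) s v)

theorem Z_eq (p q : ℕ) : Z (hv p q) = ∑ s, P p q s := by
  unfold Z P
  rw [finsum_eq_sum_of_fintype]
  exact Finset.sum_congr rfl fun s _ => finprod_eq_prod_of_fintype _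

theorem ch_pre (p q : Fin 7) (hpq : p ≤ q) (t : Fin 6) : ch p q (pre p q t) = ch p q (inr t) := by
  rcases fact1' p q hpq t with h | ⟨t', -, h, h'⟩
  · rw [h]; rfl
  · rw [h, h']

/-- Each half-edge shares its vertex with another one. -/
theorem other (p q : Fin 7) (hpq : p ≤ q) (y : (Fin 3 ⊕ Fin 6) × Bool) :
    ∃ y', y ≠ y' ∧ hv p q y = hv p q y' := by
  have key : ∀ (v : Option (Fin 7)) (y₁ y₂ : (Fin 3 ⊕ Fin 6) × Bool), hv p q y = v → y₁ ≠ y₂ →
      hv p q y₁ = v → hv p q y₂ = v → ∃ y', y ≠ y' ∧ hv p q y = hv p q y' := by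
    intro v y₁ y₂ h h12 h1 h2
    by_cases h3 : y = y₁
    · exact ⟨y₂, by rw [h3]; exact h12, by rw [h, h2]⟩
    · exact ⟨y₁, h3, by rw [h, h1]⟩
  rcases hy : hv p q y with _ | t
  · rw [← hy]
    exact key none (inl 0, true) (inl 1, true) hy (by simp) rfl rfl
  · rw [← hy]
    refine Fin.lastCases ?_ (fun t => ?_) t hy
    · intro hy
      refine key (some 6) (la p q 0, false) (la p q 1, false) hy ?_ ?_ ?_
      · intro h
        have h1 := congrArg (fun z => ch p q z.1) h
        simp only [fact2' p q hpq] at h1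
        exact absurd h1 (by decide)
      · exact (fact2 p q hpq _).2 (Or.inl rfl)
      · exact (fact2 p q hpq _).2 (Or.inr (Or.inl rfl))
    · intro hy
      exact key _ (inr t, true) (pre p q t, false) hy (by simp)
        ((fact1 p q hpq t _).2 (Or.inl rfl)) ((fact1 p q hpq t _).2 (Or.inr rfl))

theorem P_core (p q : Fin 7) (hpq : p ≤ q) (s : Fin 3 ⊕ Fin 6 → St) (hs : P p q s ≠ 0) :
    ∃ c : Fin 3 ⊕ Fin 6 → Fin 3, s = fun e => inl (c e) := by
  have h : ∀ e, ∃ c, s e = inl c := by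
    intro e
    rcases he : s e with c | b
    · exact ⟨c, rfl⟩
    · exfalso
      obtain ⟨y', h1, h2⟩ := other p q hpq (e, b)
      apply hs
      unfold P
      refine Finset.prod_eq_zero (Finset.mem_univ (hv p q (e, b)))
        (W_leaf (hv p q) s (e, b) y' h1 h2 ?_)
      simp [loc, he]
  choose c hc using h
  exact ⟨c, funext hc⟩

theorem W_none (p q : Fin 7) (c : Fin 3 ⊕ Fin 6 → Fin 3) :
    W (cnt (hv p q) (fun e => inl (c e)) none) =
      if c (inl 0) ≠ c (inl 1) ∧ c (inl 0) ≠ c (inl 2) ∧ c (inl 1) ≠ c (inl 2) then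
        X 3 * X 0 * X 1 * X 2 else 0 := by
  rw [← W_three]
  congr 1
  funext r
  rw [cnt_three (hv p q) _ none (inl 0, true) (inl 1, true) (inl 2, true) (by simp) (by simp)
    (by simp) (fact0 p q)]
  simp only [loc_inl]
  congr!

theorem W_mid (p q : Fin 7) (hpq : p ≤ q) (c : Fin 3 ⊕ Fin 6 → Fin 3) (t : Fin 6) :
    W (cnt (hv p q) (fun e => inl (c e)) (some t.castSucc)) =
      if c (inr t) = c (pre p q t) then X (c (inr t)).castSucc else 0 := by
  rw [← W_two]
  congr 1
  funext r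
  rw [cnt_two (hv p q) _ _ (inr t, true) (pre p q t, false) (by simp) (fact1 p q hpq t)]
  simp only [loc_inl]
  congr!

theorem la_ne (p q : Fin 7) (hpq : p ≤ q) (r r' : Fin 3) (hr : r ≠ r') :
    ((la p q r, false) : (Fin 3 ⊕ Fin 6) × Bool) ≠ (la p q r', false) := by
  intro h
  have h1 : la p q r = la p q r' := congrArg Prod.fst h
  have h2 := congrArg (ch p q) h1
  rw [fact2' p q hpq, fact2' p q hpq] at h2
  exact hr h2

theorem W_last (p q : Fin 7) (hpq : p ≤ q) (c : Fin 3 ⊕ Fin 6 → Fin 3) :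
    W (cnt (hv p q) (fun e => inl (c e)) (some 6)) =
      if c (la p q 0) ≠ c (la p q 1) ∧ c (la p q 0) ≠ c (la p q 2) ∧ c (la p q 1) ≠ c (la p q 2)
        then X 3 * X 0 * X 1 * X 2 else 0 := by
  rw [← W_three]
  congr 1
  funext r
  rw [cnt_three (hv p q) _ (some 6) (la p q 0, false) (la p q 1, false)
    (la p q 2, false) (la_ne p q hpq _ _ (by decide)) (la_ne p q hpq _ _ (by decide))
    (la_ne p q hpq _ _ (by decide)) (fact2 p q hpq)]
  simp only [loc_inl]
  congr!

theorem P_inl (p q : Fin 7) (hpq : p ≤ q) (c : Fin 3 ⊕ Fin 6 → Fin 3) :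
    P p q (fun e => inl (c e)) =
      (if c (inl 0) ≠ c (inl 1) ∧ c (inl 0) ≠ c (inl 2) ∧ c (inl 1) ≠ c (inl 2) then
        X 3 * X 0 * X 1 * X 2 else 0) *
      ((∏ t : Fin 6, if c (inr t) = c (pre p q t) then X (c (inr t)).castSucc else 0) *
      if c (la p q 0) ≠ c (la p q 1) ∧ c (la p q 0) ≠ c (la p q 2) ∧ c (la p q 1) ≠ c (la p q 2)
        then X 3 * X 0 * X 1 * X 2 else 0) := by
  unfold P
  rw [Fintype.prod_option, Fin.prod_univ_castSucc, W_none]
  rw [show (Fin.last 6 : Fin 7) = 6 from rfl, W_last p q hpq]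
  rw [Finset.prod_congr rfl fun t _ => W_mid p q hpq c t]

theorem colour (p q : Fin 7) (hpq : p ≤ q) (c : Fin 3 ⊕ Fin 6 → Fin 3)
    (h : ∀ t, c (inr t) = c (pre p q t)) : ∀ e, c e = c (inl (ch p q e)) := by
  have h1 : ∀ n : ℕ, ∀ t : Fin 6, t.1 = n → c (inr t) = c (inl (ch p q (inr t))) := by
    intro n
    induction n using Nat.strong_induction_on with
    | _ n ih =>
      intro t ht
      rcases fact1' p q hpq t with h2 | ⟨t', h3, h4, h5⟩
      · rw [h t, h2]
      · rw [h t, h4, ih t'.1 (by rw [← ht]; exact h3) t' rfl, h5]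
  intro e
  rcases e with r | t
  · rfl
  · exact h1 t.1 t rfl

theorem Z_hv (p q : Fin 7) (hpq : p ≤ q) : Z (hv p q) = ∑ π : Equiv.Perm (Fin 3),
    (X 3 * X 0 * X 1 * X 2) * ((∏ t : Fin 6, X (π (ch p q (inr t))).castSucc) *
      (X 3 * X 0 * X 1 * X 2)) := by
  rw [Z_eq]
  symm
  refine Fintype.sum_of_injective (fun (π : Equiv.Perm (Fin 3)) (e : Fin 3 ⊕ Fin 6) =>
    (inl (π (ch p q e)) : St)) ?_ _ _ ?_ ?_
  · intro π π' h
    ext r
    have := congrFun h (inl r)
    simp only [Sum.inl.injEq] at this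
    exact congrArg Fin.val this
  · intro s hs
    by_contra h0
    obtain ⟨c, rfl⟩ := P_core p q hpq s h0
    rw [P_inl p q hpq] at h0
    have h1 := left_ne_zero_of_mul h0
    have h2 := left_ne_zero_of_mul (right_ne_zero_of_mul h0)
    have h3 : c (inl 0) ≠ c (inl 1) ∧ c (inl 0) ≠ c (inl 2) ∧ c (inl 1) ≠ c (inl 2) := by
      by_contra h3
      rw [if_neg h3] at h1
      exact h1 rfl
    have h4 : ∀ t, c (inr t) = c (pre p q t) := by
      intro t
      have h4 := Finset.prod_ne_zero_iff.1 h2 t (Finset.mem_univ _)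
      by_contra h5
      rw [if_neg h5] at h4
      exact h4 rfl
    have hinj : Function.Injective fun r => c (inl r) := by
      intro r r' h
      obtain ⟨h5, h6, h7⟩ := h3
      fin_cases r <;> fin_cases r' <;> simp_all
    apply hs
    refine ⟨Equiv.ofBijective _ (Finite.injective_iff_bijective.1 hinj), ?_⟩
    funext e
    simp only [Equiv.ofBijective_apply]
    rw [← colour p q hpq c h4 e]
  · intro π
    rw [P_inl p q hpq, if_pos, if_pos]
    · congr 2
      refine Finset.prod_congr rfl fun t _ => ?_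
      rw [if_pos]
      rw [ch_pre p q hpq]
    · simp only [fact2' p q hpq, ne_eq, EmbeddingLike.apply_eq_iff_eq]
      decide
    · simp only [ch, ne_eq, EmbeddingLike.apply_eq_iff_eq]
      decide

end Vale.Agent.P273.D14.H837
end
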