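import Vale.Agent.P273.D14.H837.FX2

/-! The value of `f` on the theta graphs: the numbers. -/

noncomputable section
namespace Vale.Agent.P273.D14.H837
open Sum Vale.Agent.P273.Num Vale.Agent.P273.D14.FS MvPolynomial
open scoped Nat

theorem La_X (a b c : ℕ) : La (X 3 ^ 2 * (X 0 ^ a * (X 1 ^ b * X 2 ^ c))) = th1 a b c := by
  have h : (X 3 ^ 2 * (X 0 ^ a * (X 1 ^ b * X 2 ^ c)) : R) =
      monomial (Finsupp.single 3 2 + (Finsupp.single 0 a + (Finsupp.single 1 b +
        Finsupp.single 2 c))) 1 := by
    rw [X_pow_eq_monomial, X_pow_eq_monomial, X_pow_eq_monomial, X_pow_eq_monomial,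
      monomial_mul, monomial_mul, monomial_mul]
    norm_num
  rw [h, La_monomial]
  simp

theorem prod_X (u : Fin 6 → Fin 3) : (∏ t, X (u t).castSucc : R) =
    X 0 ^ (Finset.univ.filter fun t => u t = 0).card *
      (X 1 ^ (Finset.univ.filter fun t => u t = 1).card *
        X 2 ^ (Finset.univ.filter fun t => u t = 2).card) := by
  have h1 : ∀ t, (X (u t).castSucc : R) = ∏ c : Fin 3, if u t = c then X c.castSucc else 1 := by
    intro t
    rw [Finset.prod_ite_eq Finset.univ (u t)]
    simp
  rw [Finset.prod_congr rfl fun t _ => h1 t, Finset.prod_comm, Fin.prod_univ_three]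
  simp only [Finset.prod_ite, Finset.prod_const, one_pow, mul_one]
  rw [mul_assoc]
  rfl

/-- The sum over the colourings of the chains. -/
def num (p q : ℕ) : ℚ := ∑ π : Equiv.Perm (Fin 3),
  th1 ((Finset.univ.filter fun t : Fin 6 => π (ch p q (inr t)) = 0).card + 2)
    ((Finset.univ.filter fun t : Fin 6 => π (ch p q (inr t)) = 1).card + 2)
    ((Finset.univ.filter fun t : Fin 6 => π (ch p q (inr t)) = 2).card + 2)

theorem term_eq (u : Fin 6 → Fin 3) :
    La ((X 3 * X 0 * X 1 * X 2) * ((∏ t : Fin 6, X (u t).castSucc) * (X 3 * X 0 * X 1 * X 2))) =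
      th1 ((Finset.univ.filter fun t => u t = 0).card + 2)
        ((Finset.univ.filter fun t => u t = 1).card + 2)
        ((Finset.univ.filter fun t => u t = 2).card + 2) := by
  rw [prod_X, ← La_X]
  generalize (Finset.univ.filter fun t => u t = 0).card = a
  generalize (Finset.univ.filter fun t => u t = 1).card = b
  generalize (Finset.univ.filter fun t => u t = 2).card = c
  refine congrArg La ?_
  simp only [pow_add]
  ring

theorem f_hv (p q : Fin 7) (hpq : p ≤ q) : f (hv p q) = num p q := by
  unfold f num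
  rw [Z_hv p q hpq, map_sum]
  exact Finset.sum_congr rfl fun π _ => term_eq fun t => π (ch p q (inr t))

theorem num_sum : ∑ q ∈ Finset.range 7, ∑ p ∈ Finset.range (q + 1),
    (disc p (q - p) (6 - q) : ℚ) * num p q = -7 := by
  unfold num
  decide +kernel

end Vale.Agent.P273.D14.H837
end
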