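import Vale.Agent.P273.D14.H837.FX0
import Vale.Agent.P273.D14.H837.FX3
import Vale.Agent.P273.D14.H593.NumG
import Vale.Agent.P273.D14.H593.FF
import Vale.Agent.P273.D14.H387.GSP
import Mathlib.LinearAlgebra.Matrix.Permutation
import Mathlib.GroupTheory.Perm.Option

/-! The value of the functional on the theta graphs. -/

noncomputable section
namespace Vale.Agent.P273.D14.H837
open Sum Vale.Agent.P273.Num Vale.Agent.P273.D14.FS Vale.Agent.P273.D14.H387
open scoped Classical

section

variable {V E L : Type}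

theorem valid_und [Finite E] [Finite L] (g d : ℕ) (f : (E × Bool) ⊕ L → V × ℕ)
    (hst : Q.Stab und f g d) (hf : ∀ y, (f y).2 = 0) : Q.Valid und f g d := by
  refine ⟨hst, fun v => ?_⟩
  have h := hst.2.2.2.2.2.1 v
  simp only [und, hf, finsum_zero, Multiset.sum_zero, mul_zero, zero_add] at h ⊢
  omega

theorem G_und (φ : Und) (f : (E × Bool) ⊕ LL → V × ℕ) (hf : ∀ y, (f y).2 = 0)
    (hv : Q.Valid und f 2 9) : G φ V E und f = val φ fun y => (f y).1 := by
  rw [G_eq hv (fun v => by simp [und])]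
  exact G0_ty1 ⟨fun _ => rfl, hf⟩

end

/-- The position of the legs, when the legs `A 7` and `B 7` are at `v` and `w`. -/
theorem det_perm (σ : Bool → Equiv.Perm (Fin 7)) (α : LL → Option (Fin 7))
    (h : ∀ i b, α (i.castSucc, b) = some (σ b i)) (h7 : ∀ b, α (Fin.last 7, b) = none) :
    sgM α = Num.sg σ := by
  let e : Fin 8 ≃ Option (Fin 7) := finSuccEquivLast
  let τ : Bool → Fin 8 ≃ Option (Fin 7) := fun b => e.trans (Equiv.optionCongr (σ b))
  have hα : ∀ i b, α (i, b) = τ b i := by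
    intro i b
    refine Fin.lastCases ?_ (fun i => ?_) i
    · rw [h7]
      simp only [τ, e, Equiv.trans_apply, finSuccEquivLast_last]
      rfl
    · rw [h]
      simp [τ, e]
  have h1 : sgM α = Matrix.det (Equiv.Perm.permMatrix ℚ ((τ true).trans (τ false).symm)) := by
    unfold sgM
    refine congrArg Matrix.det ?_
    ext i j
    simp only [Matrix.of_apply, hα, Equiv.Perm.permMatrix, PEquiv.toMatrix_apply,
      Equiv.toPEquiv_apply, Option.mem_def, Option.some.injEq, Equiv.trans_apply,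
      Equiv.symm_apply_eq]
  rw [h1, Matrix.det_permutation]
  have h2 : ((τ true).trans (τ false).symm) =
      (e.trans (Equiv.optionCongr ((σ true).trans (σ false).symm))).trans e.symm := by
    ext i
    simp only [τ, Equiv.trans_apply, Equiv.symm_trans_apply]
    congr 2
    cases e i <;> simp
  rw [h2, Equiv.Perm.sign_trans_trans_symm, Equiv.optionCongr_sign]
  unfold Num.sg
  have h3 : (σ true).trans (σ false).symm = (σ false)⁻¹ * σ true := rfl
  rw [h3, map_mul, map_inv]
  push_cast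
  have h4 : ((Equiv.Perm.sign (σ false))⁻¹ : ℤˣ) = Equiv.Perm.sign (σ false) :=
    Int.units_inv_eq_self _
  rw [h4]
  ring

/-- The position of the legs, when `A 7` is at `v` and `B 7` is at `w`. -/
theorem sg_zero (p q : ℕ) (σ : Bool → Equiv.Perm (Fin 7)) (v w : Option (Fin 7))
    (h : ¬ (v = none ∧ w = none)) :
    sgM (fun x : LL => (Q.ad (Q.ad (th p q σ) v 0) w 0 (inr (ep16.symm x))).1) = 0 := by
  by_contra h0
  have h1 := sgM_inj h0
  have e1 : ∀ i b, (Q.ad (Q.ad (th p q σ) v 0) w 0 (inr (ep16.symm (Fin.castSucc i, b)))).1 =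
      some (σ b i) := by
    intro i b
    have : ep16.symm (Fin.castSucc i, b) = some (some (i, b)) := by
      rw [Equiv.symm_apply_eq, ep16_some]
    rw [this]
    rfl
  rcases w with _ | t
  · rcases v with _ | t
    · exact h ⟨rfl, rfl⟩
    · have h2 := @h1 true (Fin.castSucc ((σ true).symm t)) (Fin.last 7) (by
        show (Q.ad (Q.ad (th p q σ) (some t) 0) none 0 (inr (ep16.symm (Fin.castSucc _, true)))).1 = _
        rw [e1, Equiv.apply_symm_apply]
        rfl)
      exact (Fin.castSucc_lt_last _).ne h2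
  · have h2 := @h1 false (Fin.castSucc ((σ false).symm t)) (Fin.last 7) (by
      show (Q.ad (Q.ad (th p q σ) v 0) (some t) 0 (inr (ep16.symm (Fin.castSucc _, false)))).1 = _
      rw [e1, Equiv.apply_symm_apply]
      rfl)
    exact (Fin.castSucc_lt_last _).ne h2

theorem sg_one (p q : ℕ) (σ : Bool → Equiv.Perm (Fin 7)) :
    sgM (fun x : LL => (Q.ad (Q.ad (th p q σ) none 0) none 0 (inr (ep16.symm x))).1) = Num.sg σ := by
  apply det_perm
  · intro i b
    have : ep16.symm (Fin.castSucc i, b) = some (some (i, b)) := by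
      rw [Equiv.symm_apply_eq, ep16_some]
    simp only [this]
    rfl
  · intro b
    cases b <;> rfl

theorem FF_th (φ : Und) (p q : Fin 7) (hpq : p ≤ q) (σ : Bool → Equiv.Perm (Fin 7)) :
    FF (G φ) (Option (Fin 7)) (Fin 3 ⊕ Fin 6) und (th p q σ) =
      Num.sg σ * φ (Option (Fin 7)) (Fin 3 ⊕ Fin 6) (hv p q) := by
  have hv1 := th_valid p q hpq (by omega) σ
  have hf := th_snd p q σ
  have key : ∀ v w, GG (G φ) (Option (Fin 7)) (Fin 3 ⊕ Fin 6) und
      (Q.ad (Q.ad (th p q σ) v 0) w 0) =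
      sgM (fun x : LL => (Q.ad (Q.ad (th p q σ) v 0) w 0 (inr (ep16.symm x))).1) *
        φ (Option (Fin 7)) (Fin 3 ⊕ Fin 6) (hv p q) := by
    intro v w
    unfold GG Mv.rb
    have h2 : ∀ y, (Q.ad (Q.ad (th p q σ) v 0) w 0 y).2 = 0 := ad_snd _ (ad_snd _ hf v) w
    have h3 : Q.Stab und (Q.ad (Q.ad (th p q σ) v 0) w 0) 2 9 :=
      stab_ad _ _ _ _ (stab_ad _ _ _ _ hv1.1 v) w
    have h4 : Q.Valid und (Q.ad (Q.ad (th p q σ) v 0) w 0) 2 9 := valid_und _ _ _ h3 h2
    rw [G_und φ _ (fun y => h2 _)]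
    · unfold val
      refine congrArg₂ (· * ·) rfl ?_
      congr 1
      funext y
      show (Q.ad (Q.ad (th p q σ) v 0) w 0 (inl y)).1 = _
      show (th p q σ (inl y)).1 = _
      rw [th_inl]
    · rw [Mv.valid_relab und (Q.ad (Q.ad (th p q σ) v 0) w 0) 2 9 ep16.symm]
      exact h4
  have hsum : ∀ v, Q.pull 2 9 (GG (G φ)) (Option (Fin 7)) (Fin 3 ⊕ Fin 6) und
      (Q.ad (th p q σ) v 0) = ∑ᶠ w, GG (G φ) (Option (Fin 7)) (Fin 3 ⊕ Fin 6) und
      (Q.ad (Q.ad (th p q σ) v 0) w 0) := fun v =>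
    pull_und _ _ _ _ (stab_ad _ _ _ _ hv1.1 v) (ad_snd _ hf v)
  unfold FF
  rw [pull_und _ _ _ _ hv1.1 hf]
  simp only [hsum, key]
  rw [finsum_eq_single _ none, finsum_eq_single _ none, sg_one]
  · intro w hw
    rw [sg_zero, zero_mul]
    exact fun h => hw h.2
  · intro v hv
    refine finsum_eq_zero_of_forall_eq_zero fun w => ?_
    rw [sg_zero, zero_mul]
    exact fun h => hv h.1

end Vale.Agent.P273.D14.H837
end
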