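import Vale.Agent.P273.D14.H593.NumX
import Vale.Agent.P273.D14.H599.Wk

/-! The contribution of a common degeneration of two undecorated graphs with all genera `0`. -/

noncomputable section

namespace Vale.Agent.P273.Num

open Sum Vale.Agent.P273.Q
open scoped Classical Nat

variable {V E L V' E' : Type}

instance : IsEmpty (Kap (und : V → ℕ × Multiset ℕ)) :=
  ⟨fun t => by
    have h : t.2.1 ∈ (und t.1).2 := Multiset.coe_mem
    exact absurd h (Multiset.notMem_zero _)⟩

theorem finsum_single {α : Type} [Fintype α] (P : α → Prop) [DecidablePred P] (c : α → ℕ) :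
    ∑ᶠ (y) (_ : P y), ({c y} : Multiset ℕ) = (Finset.univ.filter P).val.map c := by
  rw [finsum_eq_sum_of_fintype]
  simp only [finsum_eq_if]
  rw [← Finset.sum_filter]
  show (Multiset.map ((fun a => ({a} : Multiset ℕ)) ∘ c) _).sum = _
  rw [← Multiset.map_map, Multiset.sum_map_singleton]

namespace Dgn

variable {k : ℕ} {f : (E × Bool) ⊕ L → V × ℕ} {f' : (E' × Bool) ⊕ L → V' × ℕ}

/-- The valence of the vertex `w` of the degeneration. -/
def nn {a : V → ℕ × Multiset ℕ} {a' : V' → ℕ × Multiset ℕ} (S : Dgn k a f a' f') (w : Fin k) : ℕ :=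
  Nat.card {y : E × Bool // S.h (inl y) = w} +
    Nat.card {y : E' × Bool // S.h' y = w ∧ ∀ e b, S.M e ≠ some (y.1, b)} +
    Nat.card {x : L // S.h (inr x) = w}

/-- The number of the psi classes at `w` from the excess. -/
def rr {a : V → ℕ × Multiset ℕ} {a' : V' → ℕ × Multiset ℕ} (S : Dgn k a f a' f')
    (ε : {e // S.M e ≠ none} → Bool) (w : Fin k) : ℕ :=
  Nat.card {e // S.h (inl (e.1, ε e)) = w}

theorem exps_und [Finite E] [Finite E'] [Finite L] (S : Dgn k und f und f')
    (hf : ∀ y, (f y).2 = 0) (hf' : ∀ y, (f' y).2 = 0) (ε : {e // S.M e ≠ none} → Bool)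
    (w : Fin k) : ∃ s, S.nn w = S.rr ε w + s ∧
      S.exps ε w = Multiset.replicate (S.rr ε w) 1 + Multiset.replicate s 0 := by
  have : Fintype E := Fintype.ofFinite E
  have : Fintype E' := Fintype.ofFinite E'
  have : Fintype L := Fintype.ofFinite L
  let c : E × Bool → ℕ := fun y =>
    if h : S.M y.1 ≠ none then (if ε ⟨y.1, h⟩ = y.2 then 1 else 0) else 0
  have h1 : S.exps ε w = (Finset.univ.filter fun y : E × Bool => S.h (inl y) = w).val.map c +
      (Finset.univ.filter fun y : E' × Bool =>
        S.h' y = w ∧ ∀ e b, S.M e ≠ some (y.1, b)).val.map (fun _ => 0) +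
      (Finset.univ.filter fun x : L => S.h (inr x) = w).val.map (fun _ => 0) := by
    rw [← finsum_single, ← finsum_single, ← finsum_single]
    unfold exps
    have e1 : ∀ y : E × Bool, (f (inl y)).2 +
        (S.M y.1).elim 0 (fun e' => (f' (inl (e'.1, xor e'.2 y.2))).2) +
        (if h : S.M y.1 ≠ none then (if ε ⟨y.1, h⟩ = y.2 then 1 else 0) else 0) = c y := by
      intro y
      have : (S.M y.1).elim 0 (fun e' => (f' (inl (e'.1, xor e'.2 y.2))).2) = 0 := by
        cases S.M y.1 <;> simp [hf']
      rw [this, hf]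
      simp [c]
    simp only [e1]
    simp only [hf, hf', finsum_of_isEmpty, add_zero]
  have h2 : (Finset.univ.filter fun y : E × Bool => S.h (inl y) = w).val.map c =
      Multiset.replicate (S.rr ε w) 1 + Multiset.replicate
        ((Finset.univ.filter fun y : E × Bool => S.h (inl y) = w ∧ c y ≠ 1).card) 0 := by
    have h3 : (Finset.univ.filter fun y : E × Bool => S.h (inl y) = w) =
        (Finset.univ.filter fun y : E × Bool => S.h (inl y) = w ∧ c y = 1).disjUnion
        (Finset.univ.filter fun y : E × Bool => S.h (inl y) = w ∧ c y ≠ 1) (by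
          rw [Finset.disjoint_filter]
          intro y _ h1 h2
          exact h2.2 h1.2) := by
      ext y
      simp only [Finset.mem_filter, Finset.mem_univ, true_and, Finset.mem_disjUnion]
      tauto
    rw [h3, Finset.disjUnion_val, Multiset.map_add]
    congr 1
    · have h4 : S.rr ε w = (Finset.univ.filter fun y : E × Bool =>
          S.h (inl y) = w ∧ c y = 1).card := by
        unfold rr
        rw [← Fintype.card_subtype, ← Nat.card_eq_fintype_card]
        have hc : ∀ y : E × Bool, c y = 1 ↔ ∃ h : S.M y.1 ≠ none, ε ⟨y.1, h⟩ = y.2 := by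
          intro y
          simp only [c]
          split_ifs with h1 h2
          · simp [h1, h2]
          · simp [h1, h2]
          · simp only [false_iff]
            rintro ⟨h, -⟩
            exact h1 h
        refine Nat.card_congr ⟨fun e => ⟨(e.1.1, ε e.1), e.2, (hc _).2 ⟨e.1.2, rfl⟩⟩,
          fun y => ⟨⟨y.1.1, ((hc _).1 y.2.2).1⟩, ?_⟩, ?_, ?_⟩
        · have := ((hc _).1 y.2.2).2
          rw [this]
          exact y.2.1
        · intro e
          rfl
        · rintro ⟨⟨e, b⟩, hy⟩
          have := ((hc _).1 hy.2).2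
          simp only [Subtype.mk.injEq, Prod.mk.injEq, true_and]
          exact this
      rw [h4]
      rw [Multiset.eq_replicate]
      refine ⟨by rw [Multiset.card_map]; rfl, ?_⟩
      intro b hb
      obtain ⟨y, hy, rfl⟩ := Multiset.mem_map.1 hb
      exact (Finset.mem_filter.1 hy).2.2
    · rw [Multiset.eq_replicate]
      refine ⟨by rw [Multiset.card_map]; rfl, ?_⟩
      intro b hb
      obtain ⟨y, hy, rfl⟩ := Multiset.mem_map.1 hb
      have h5 := (Finset.mem_filter.1 hy).2.2
      simp only [c] at h5 ⊢
      split_ifs at h5 ⊢ <;> simp_all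
  have h6 : Nat.card {y : E × Bool // S.h (inl y) = w} = S.rr ε w +
      (Finset.univ.filter fun y : E × Bool => S.h (inl y) = w ∧ c y ≠ 1).card := by
    have := congrArg Multiset.card h2
    simp only [Multiset.card_map, Multiset.card_add, Multiset.card_replicate] at this
    rw [← this, Nat.card_eq_fintype_card, Fintype.card_subtype]
    rfl
  refine ⟨(Finset.univ.filter fun y : E × Bool => S.h (inl y) = w ∧ c y ≠ 1).card +
    Nat.card {y : E' × Bool // S.h' y = w ∧ ∀ e b, S.M e ≠ some (y.1, b)} +
    Nat.card {x : L // S.h (inr x) = w}, ?_, ?_⟩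
  · unfold nn
    rw [h6]
    ring
  · rw [h1, h2, Multiset.map_const', Multiset.map_const', Multiset.replicate_add,
      Multiset.replicate_add, Nat.card_eq_fintype_card, Nat.card_eq_fintype_card,
      Fintype.card_subtype, Fintype.card_subtype]
    simp only [Finset.card_val, add_assoc]

/-- The contribution of a common degeneration of two undecorated graphs. -/
theorem wt_und [Finite E] [Finite E'] [Finite L] (S : Dgn k und f und f')
    (hf : ∀ y, (f y).2 = 0) (hf' : ∀ y, (f' y).2 = 0) (hg : S.g = 0) :
    S.wt = (-1) ^ Nat.card {e // S.M e ≠ none} * ∑ᶠ ε : {e // S.M e ≠ none} → Bool,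
      ∏ w, if S.nn w = S.rr ε w + 3 then ((S.rr ε w) ! : ℚ) else 0 := by
  unfold wt
  have h1 : Nat.card {t // S.J t ≠ none} = 0 := by simp
  rw [h1, add_zero]
  congr 1
  refine finsum_congr fun ε => Finset.prod_congr rfl fun w _ => ?_
  obtain ⟨s, hs, he⟩ := S.exps_und hf hf' ε w
  rw [he, hg, hs]
  simp only [Multiset.card_add, Multiset.card_replicate, Pi.zero_apply]
  rw [wk_zero]
  by_cases h3 : s = 3
  · simp [h3]
  · rw [if_neg h3, if_neg (by omega)]

end Dgn

end Vale.Agent.P273.Num
end
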